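import Vale.Agent.P367.Bd3.B10
import Vale.Agent.P367.Bd3.B1
import Vale.Agent.P367.H940.Range
import Vale.Agent.P367.H84.V2

open MeasureTheory Filter Topology Vale.Agent.P367.Gap Vale.Agent.P367.H84

/-- (1) The limits defining `P_*` and `v_p(γ, β)` exist, `Q_p` is finite and smaller than `P_*` by
an explicit amount, `Q_p → P_*` (question 1, positive), and the numbers `v_p(γ, β)` are exactly
those strictly between `-P_*` and `P_*`. (2) Universality: if the couplings `J_ij` are independent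
with an arbitrary common law `ν` of mean `0` and variance `1` (for instance `J_ij = ±1`), the
limiting energy of every QAOA circuit is the same `v_p(γ, β)` and the limiting ground state energy
is the same `P_*`. (3) One and the same circuit, of constant depth, is optimal up to `ε` for all
such laws, in mean, and with high probability over the instance and the measured string. -/
theorem Vale.Agent.Results.P367.DisorderUniversality.result :
    (Tendsto groundValue atTop (𝓝 Pstar) ∧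
      (∀ (p : ℕ) (γ β : Fin p → ℝ),
        Tendsto (fun n : ℕ => qaoaValue n p γ β) atTop (𝓝 (vLim p γ β))) ∧
      (∀ p : ℕ, BddAbove (Set.range fun a : (Fin p → ℝ) × (Fin p → ℝ) => vLim p a.1 a.2)) ∧
      (∀ p : ℕ, Qsup p ≤ Pstar - Real.exp (-(10 ^ 6 * 16 ^ p))) ∧
      Tendsto Qsup atTop (𝓝 Pstar) ∧
      {v : ℝ | ∃ (p : ℕ) (γ β : Fin p → ℝ), vLim p γ β = v} = Set.Ioo (-Pstar) Pstar) ∧
    (∀ ν : Measure ℝ, IsProbabilityMeasure ν → ∫ x : ℝ, x ∂ν = 0 → ∫ x : ℝ, x ^ 2 ∂ν = 1 →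
      (∀ (p : ℕ) (γ β : Fin p → ℝ),
        Tendsto (fun n : ℕ => (n : ℝ)⁻¹ *
          ∫ J, qaoaMean J p γ β ∂(Measure.pi fun _ : Pair n => ν)) atTop (𝓝 (vLim p γ β))) ∧
      Tendsto (fun n : ℕ => (n : ℝ)⁻¹ *
        ∫ J, (⨆ s : Conf n, skEnergy J s) ∂(Measure.pi fun _ : Pair n => ν))
        atTop (𝓝 Pstar)) ∧
    (∀ ε : ℝ, 0 < ε → ∃ (p : ℕ) (γ β : Fin p → ℝ), ∀ ν : Measure ℝ, IsProbabilityMeasure ν →
      ∫ x : ℝ, x ∂ν = 0 → ∫ x : ℝ, x ^ 2 ∂ν = 1 →
      ∀ᶠ n : ℕ in atTop,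
        (n : ℝ)⁻¹ * (∫ J, (⨆ s : Conf n, skEnergy J s) ∂(Measure.pi fun _ : Pair n => ν)) - ε ≤
          (n : ℝ)⁻¹ * ∫ J, qaoaMean J p γ β ∂(Measure.pi fun _ : Pair n => ν) ∧
        1 - ε ≤ (Measure.pi fun _ : Pair n => ν).real {J | 1 - ε ≤ nearProb J p γ β ε}) :=
  ⟨⟨Vale.Agent.P367.Lim.tendsto_Pstar, Vale.Agent.P367.Lim.tendsto_vLim,
    Vale.Agent.P367.Lim.bdd_vLim, Vale.Agent.P367.Lim.Qsup_le,
    Vale.Agent.P367.tendsto_Qsup_Pstar,
    Vale.Agent.P367.H940.range_vLim Vale.Agent.P367.tendsto_Qsup_Pstar⟩,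
    fun ν _ e1 e2 =>
      ⟨fun p γ β => Vale.Agent.P367.H84.U.value_tendsto ν (Vale.Agent.P367.H84.U.sq_of_one ν e2)
        e1 e2 p γ β,
        Vale.Agent.P367.H84.U.ground_tendsto Vale.Agent.P367.Lim.tendsto_Pstar ν
          (Vale.Agent.P367.H84.U.mom_of ν e1 e2)⟩,
    Vale.Agent.P367.H84.V.one_circuit (Vale.Agent.P367.limit_free
      Vale.Agent.P367.Lim.tendsto_Pstar Vale.Agent.P367.Lim.tendsto_vLim
      Vale.Agent.P367.tendsto_Qsup_Pstar)⟩
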