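import Vale.Agent.P367.Bd3.B10
import Vale.Agent.P367.Bd3.B1
import Vale.Agent.P367.H648.Alg

open Filter Topology Vale.Agent.P367.Gap Vale.Agent.P367.H648

/-- For the Sherrington-Kirkpatrick model: (1) `P_*` and `v_p(γ, β)` exist, `Q_p` is finite and
`Q_p → P_*`. (2) Every quantum algorithm that uses the instance only through controlled time
evolution, of total time `T`, misses the ground state energy by at least `exp(-10^8 (1+T)^2)` per
spin, for every `n ≥ 2` and every number of steps. (3) QAOA is such an algorithm. (4) Algorithms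
with total time at most `T(n)` can reach `P_*` if and only if `T(n) → ∞`, and then QAOA does. -/
theorem Vale.Agent.Results.P367.HamiltonianAccess.result :
    (Tendsto groundValue atTop (𝓝 Pstar) ∧
      (∀ (p : ℕ) (γ β : Fin p → ℝ),
        Tendsto (fun n : ℕ => qaoaValue n p γ β) atTop (𝓝 (vLim p γ β))) ∧
      (∀ p : ℕ, BddAbove (Set.range fun a : (Fin p → ℝ) × (Fin p → ℝ) => vLim p a.1 a.2)) ∧
      Tendsto Qsup atTop (𝓝 Pstar)) ∧
    (∀ n : ℕ, 2 ≤ n → ∀ a : Algorithm n,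
      a.value ≤ groundValue n - Real.exp (-(10 ^ 8 * (1 + a.totalTime) ^ 2))) ∧
    (∀ (n p : ℕ) (γ β : Fin p → ℝ), ∃ a : Algorithm n, a.depth = p ∧
      a.totalTime = ∑ k, |γ k| ∧ a.value = qaoaValue n p γ β) ∧
    (∀ T : ℕ → ℝ,
      ((∃ a : (n : ℕ) → Algorithm n, (∀ᶠ n in atTop, (a n).totalTime ≤ T n) ∧
        Tendsto (fun n => (a n).value) atTop (𝓝 Pstar)) ↔ Tendsto T atTop atTop) ∧
      (Tendsto T atTop atTop → ∃ (p : ℕ → ℕ) (γ β : (n : ℕ) → Fin (p n) → ℝ),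
        (∀ᶠ n in atTop, ∑ k, |γ n k| ≤ T n) ∧
        Tendsto (fun n => qaoaValue n (p n) (γ n) (β n)) atTop (𝓝 Pstar))) := by
  have h1 := Vale.Agent.P367.Lim.tendsto_Pstar
  have h6 := Vale.Agent.P367.limit_free Vale.Agent.P367.Lim.tendsto_Pstar
      Vale.Agent.P367.Lim.tendsto_vLim Vale.Agent.P367.tendsto_Qsup_Pstar
  refine ⟨⟨h1, Vale.Agent.P367.Lim.tendsto_vLim, Vale.Agent.P367.Lim.bdd_vLim,
    Vale.Agent.P367.tendsto_Qsup_Pstar⟩, fun n hn a => a.gap hn, qaoa_is, fun T => ⟨⟨?_, ?_⟩,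
    qaoa_reach h1 h6 T⟩⟩
  · rintro ⟨a, ha, hb⟩
    exact time_diverges h1 T a ha hb
  · intro hT
    obtain ⟨p, γ, β, ha, hb⟩ := qaoa_reach h1 h6 T hT
    refine ⟨fun n => qAlg n (p n) (γ n) (β n), ha, ?_⟩
    simpa only [qAlg_value] using hb
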