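import Vale.Agent.P367.Bd3.B10
import Vale.Agent.P367.Bd3.B1
import Vale.Agent.P367.H84.Main
import Vale.Agent.P367.H84.Conc

open MeasureTheory Filter Topology Vale.Agent.P367.Gap Vale.Agent.P367.H84

/-- For the Sherrington-Kirkpatrick model: the limits defining `P_*` and `v_p(γ, β)` exist, `Q_p` is
finite, smaller than `P_*` by an explicit amount, and `Q_p → P_*`. Moreover (7) constant depth gives
near-optimal strings with high probability, (8) diverging depth and total phase, however slow,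
give `P_*` for the measured energy in mean, (9) at every finite size, for all depths and angles, the distance
to the ground state energy is bounded from below in terms of the total phase only, and hence (10)
the total phase of every protocol that reaches `P_*` diverges. -/
theorem Vale.Agent.Results.P367.NearOptimalSampling.result :
    Tendsto groundValue atTop (𝓝 Pstar) ∧
    (∀ (p : ℕ) (γ β : Fin p → ℝ),
      Tendsto (fun n : ℕ => qaoaValue n p γ β) atTop (𝓝 (vLim p γ β))) ∧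
    (∀ p : ℕ, BddAbove (Set.range fun a : (Fin p → ℝ) × (Fin p → ℝ) => vLim p a.1 a.2)) ∧
    (∀ p : ℕ, Qsup p ≤ Pstar - Real.exp (-(10 ^ 6 * 16 ^ p))) ∧
    Tendsto Qsup atTop (𝓝 Pstar) ∧
    (∀ ε : ℝ, 0 < ε → ∃ (p : ℕ) (γ β : Fin p → ℝ),
      ∀ᶠ n in atTop, groundValue n - ε ≤ qaoaValue n p γ β) ∧
    (∀ ε : ℝ, 0 < ε → ∃ (p : ℕ) (γ β : Fin p → ℝ), ∀ᶠ n in atTop,
      1 - ε ≤ (couplingLaw n).real {J | 1 - ε ≤ nearProb J p γ β ε}) ∧
    (∀ (p : ℕ → ℕ) (T : ℕ → ℝ), Tendsto p atTop atTop → Tendsto T atTop atTop →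
      ∃ γ β : (n : ℕ) → Fin (p n) → ℝ,
        (∀ᶠ n in atTop, ∑ k, (|γ n k| + |β n k|) ≤ T n) ∧
        Tendsto (fun n => meanErr n (p n) (γ n) (β n)) atTop (𝓝 0)) ∧
    (∀ n : ℕ, 2 ≤ n → ∀ (p : ℕ) (γ β : Fin p → ℝ),
      qaoaValue n p γ β ≤ groundValue n - Real.exp (-(10 ^ 8 * (1 + ∑ k, |γ k|) ^ 2))) ∧
    (∀ (p : ℕ → ℕ) (γ β : (n : ℕ) → Fin (p n) → ℝ),
      Tendsto (fun n => qaoaValue n (p n) (γ n) (β n)) atTop (𝓝 Pstar) →
      Tendsto (fun n => ∑ k, |γ n k|) atTop atTop) :=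
  have h1 := Vale.Agent.P367.Lim.tendsto_Pstar
  have h6 := Vale.Agent.P367.limit_free Vale.Agent.P367.Lim.tendsto_Pstar
      Vale.Agent.P367.Lim.tendsto_vLim Vale.Agent.P367.tendsto_Qsup_Pstar
  ⟨h1, Vale.Agent.P367.Lim.tendsto_vLim,
    Vale.Agent.P367.Lim.bdd_vLim, Vale.Agent.P367.Lim.Qsup_le,
    Vale.Agent.P367.tendsto_Qsup_Pstar, h6,
    fun ε hε => sampling h1 Vale.Agent.P367.H84.conc h6 ε hε,
    fun p T hp hT => diverging h1 Vale.Agent.P367.H84.conc h6 p T hp hT,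
    fun n hn p γ β => phase n hn p γ β,
    fun p γ β h => phase_diverges h1 p γ β h⟩
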